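import Vale.Agent.P251EJ28.PresTel
import Vale.Agent.P251EJ81.Free

/-!
# P251EJ, block HS: the first half `HS1`
-/

set_option autoImplicit false
set_option linter.all false

open CategoryTheory MonoidalCategory MonObj Limits Pretriangulated

universe u

noncomputable section

namespace Vale.Agent.P251EJ28

open Vale.Agent.P251 Vale.Agent.P251.S Vale.Agent.P251.T Vale.Agent.P251.M EvenSpheres
  Vale.Agent.P251.X Vale.Agent.P257.H80 Vale.Agent.P093.Nak Vale.Agent.P251EJ
  Vale.Agent.P251EJ81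

variable {𝒯 : Type u} [Category.{0} 𝒯] [Preadditive 𝒯] [HasZeroObject 𝒯]
    [HasShift 𝒯 ℤ] [∀ n : ℤ, (shiftFunctor 𝒯 n).Additive] [Pretriangulated 𝒯] [IsTriangulated 𝒯]
    [MonoidalCategory 𝒯] [SymmetricCategory 𝒯] [TensorTriangulated 𝒯] [MonoidalClosed 𝒯]
    [HasCoproducts.{0} 𝒯] [HasProducts.{0} 𝒯] [StableCat 𝒯]

/-- degreewise bijections assemble to a bijection -/
theorem bij_toAddMonoid {A : Type} [CommRing A] (H : ℤ → AddSubgroup A) [GradedRing H]
    {β : ℤ → Type} [∀ d, AddCommGroup (β d)] (θ : ∀ d, β d →+ A) (hm : ∀ d x, θ d x ∈ H d)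
    (hi : ∀ d x, θ d x = 0 → x = 0) (hs : ∀ d, ∀ a ∈ H d, ∃ x, θ d x = a) :
    Function.Bijective (DirectSum.toAddMonoid θ) := by
  have key : ∀ (d : ℤ) (x : DirectSum ℤ β),
      GradedRing.proj H d (DirectSum.toAddMonoid θ x) = θ d (x d) := fun d x => by
    induction x using DirectSum.induction_on with
    | zero => rw [map_zero, map_zero, DirectSum.zero_apply, map_zero]
    | of k x =>
      rw [DirectSum.toAddMonoid_of, GradedRing.proj_apply]
      by_cases h : k = d
      · subst h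
        rw [DirectSum.of_eq_same, DirectSum.decompose_of_mem_same H (hm k x)]
      · rw [DirectSum.of_eq_of_ne _ _ _ (Ne.symm h), map_zero,
          DirectSum.decompose_of_mem_ne H (hm k x) h]
    | add x y hx hy => rw [map_add, map_add, hx, hy, DirectSum.add_apply, map_add]
  refine ⟨(injective_iff_map_eq_zero _).2 fun x hx => DFinsupp.ext fun d => hi d _ ?_, fun a => ?_⟩
  · have h1 := key d x
    rw [hx, map_zero] at h1
    exact h1.symm
  · induction a using DirectSum.Decomposition.inductionOn H with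
    | zero => exact ⟨0, map_zero _⟩
    | @homogeneous d a =>
      obtain ⟨x, hx⟩ := hs d a a.2
      exact ⟨DirectSum.of β d x, by rw [DirectSum.toAddMonoid_of, hx]⟩
    | add a b ha hb =>
      obtain ⟨x, rfl⟩ := ha
      obtain ⟨y, rfl⟩ := hb
      exact ⟨x + y, map_add _ _ _⟩

variable (𝒯) in
/-- **The first half of `HS`.** -/
theorem hs1 : P251EJ80.HS1 𝒯 := by
  intro B _ _ J rbB A _ H _ lam ho hl P
  have hB : Fre B B := ⟨J, ⟨rbB⟩⟩
  obtain ⟨G, io, tel⟩ := exists_isTel (seq P)
  let m : ∀ i, ModStr B ((seq P).obj i) := fun i => ModStr.free B (WW P i)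
  have hlin : ∀ i, (m i).IsLinear (m (i + 1)) ((seq P).map (homOfLE (Nat.le_succ i))) := fun i => by
    rw [seq_map]
    exact tr_lin P i
  have hodd : ∀ i, OddZero ((seq P).obj i) := fun i => odd_free ho (Fre.sigma (P.deg i))
  obtain ⟨mG, hmG⟩ := exists_telMod hB tel m hlin hodd fun i => hB.tensor (Fre.sigma (P.deg i))
  have hθ : ∀ d : ℤ, ∃ θ : ((stdEven 𝒯).S d ⟶ G) →+ A,
      ∀ (i : ℕ) (w : (stdEven 𝒯).S d ⟶ (seq P).obj i),
        θ (w ≫ io i) = th P i (MP.of (stdEven 𝒯) B (WW P i) d w) := fun d =>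
    exists_colimHom tel (isCpt_S d)
      (fun i => (th P i).comp (MP.of (stdEven 𝒯) B (WW P i) d)) fun i w => by
        rw [seq_map]
        exact th_tr P i w
  choose θ hθ using hθ
  have hfac : ∀ (d : ℤ) (x : (stdEven 𝒯).S d ⟶ G), ∃ (i : ℕ) (w : (stdEven 𝒯).S d ⟶ (seq P).obj i),
      w ≫ io i = x := fun d x => tel.exists_factor' (isCpt_S d) x
  have hm : ∀ d x, θ d x ∈ H d := fun d x => by
    obtain ⟨i, w, rfl⟩ := hfac d x
    rw [hθ]
    exact th_mem P hl i w
  have hi : ∀ d x, θ d x = 0 → x = 0 := fun d x hx => by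
    obtain ⟨i, w, rfl⟩ := hfac d x
    rw [hθ] at hx
    obtain ⟨j, hj, h0⟩ := th_inj P i w hx
    have h1 : w ≫ (seq P).map (homOfLE hj) = 0 := h0
    rw [← tel.comp hj, ← Category.assoc, h1, zero_comp]
  have hs : ∀ d, ∀ a ∈ H d, ∃ x, θ d x = a := fun d a ha => by
    obtain ⟨i, w, hw⟩ := th_surj P ha
    exact ⟨(w : _ ⟶ (seq P).obj i) ≫ io i, (hθ d i w).trans hw⟩
  have hsm : ∀ (k d n : ℤ) (h : k + d = n) (c : (stdEven 𝒯).S k ⟶ B) (x : (stdEven 𝒯).S d ⟶ G),
      θ n (gsmul mG h c x) = lam (HRing.of (stdEven 𝒯) B k c) * θ d x := fun k d n h c x => by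
    obtain ⟨i, w, rfl⟩ := hfac d x
    rw [gsmul_comp (m i) mG (hmG i), hθ, hθ, ← th_smul]
    exact congrArg (th P i) (MP.smul_of (W := WW P i) h c w).symm
  let e : HMod (stdEven 𝒯) G ≃+ A :=
    AddEquiv.ofBijective (DirectSum.toAddMonoid θ) (bij_toAddMonoid H θ hm hi hs)
  have he : ∀ d x, e (HRing.of (stdEven 𝒯) G d x) = θ d x := fun d x =>
    DirectSum.toAddMonoid_of θ d x
  refine ⟨{ I := P.I
            deg := P.deg
            F := seq P
            m := m
            w := ww P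
            free := fun i => (rb P i).isIso'
            lin_t := hlin
            G := G
            io := io
            tel := tel
            mG := mG
            lin_io := hmG
            odd := odd_tel tel hodd
            ψ := e.symm.toAddMonoidHom
            bij := e.symm.bijective
            ψ_mem := fun d a ha => ?_
            ψ_lam := fun k d n h c a x hx => ?_ }⟩
  · obtain ⟨x, rfl⟩ := hs d a ha
    exact ⟨x, e.symm_apply_eq.2 (he d x).symm⟩
  · have h1 : a = θ d x := (e.symm_apply_eq.1 hx).trans (he d x)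
    refine e.symm_apply_eq.2 ?_
    rw [he, hsm, h1]

end Vale.Agent.P251EJ28
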