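import Vale.Agent.P251EJ80.TD
import Vale.Agent.P251EJ81.TelMod

/-!
# P251EJ, block HS: the telescope attached to a presentation

* `exists_colimHom` : additive maps on `[W, G]` from compatible additive maps on the `[W, F n]`;
* `tr`, `seq` : the sequence of free modules attached to a presentation;
* `th` : the comparison maps `π_{2*}(B ⊗ W i) → A`.
-/

set_option autoImplicit false
set_option linter.all false

open CategoryTheory MonoidalCategory MonObj Limits Pretriangulated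

universe u

noncomputable section

namespace Vale.Agent.P251EJ28

open Vale.Agent.P251 Vale.Agent.P251.S Vale.Agent.P251.T Vale.Agent.P251.M EvenSpheres
  Vale.Agent.P251.X Vale.Agent.P257.H80 Vale.Agent.P093.Nak Vale.Agent.P251EJ

variable {𝒯 : Type u} [Category.{0} 𝒯] [Preadditive 𝒯] [HasZeroObject 𝒯]
    [HasShift 𝒯 ℤ] [∀ n : ℤ, (shiftFunctor 𝒯 n).Additive] [Pretriangulated 𝒯] [IsTriangulated 𝒯]
    [MonoidalCategory 𝒯] [SymmetricCategory 𝒯] [TensorTriangulated 𝒯] [MonoidalClosed 𝒯]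
    [HasCoproducts.{0} 𝒯] [HasProducts.{0} 𝒯] [StableCat 𝒯]

section colim

variable {F : ℕ ⥤ 𝒯} {G : 𝒯} {io : ∀ n, F.obj n ⟶ G} {W : 𝒯} {A : Type} [AddCommGroup A]

theorem compat_le (φ : ∀ n, (W ⟶ F.obj n) →+ A)
    (hφ : ∀ n w, φ (n + 1) (w ≫ F.map (homOfLE (Nat.le_succ n))) = φ n w) {n m : ℕ} (h : n ≤ m)
    (w : W ⟶ F.obj n) : φ m (w ≫ F.map (homOfLE h)) = φ n w := by
  induction m, h using Nat.le_induction with
  | base =>
    have : homOfLE (le_refl n) = 𝟙 n := rfl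
    rw [this, F.map_id, Category.comp_id]
  | succ m h ih =>
    have : homOfLE (Nat.le_succ_of_le h) = homOfLE h ≫ homOfLE (Nat.le_succ m) := rfl
    rw [this, F.map_comp, ← Category.assoc, hφ, ih]

theorem compat_eq (h : M.IsTel F G io) (hW : M.IsCpt W) (φ : ∀ n, (W ⟶ F.obj n) →+ A)
    (hφ : ∀ n w, φ (n + 1) (w ≫ F.map (homOfLE (Nat.le_succ n))) = φ n w) {n n' : ℕ}
    (w : W ⟶ F.obj n) (w' : W ⟶ F.obj n') (hw : w ≫ io n = w' ≫ io n') : φ n w = φ n' w' := by
  obtain ⟨m, hm, h0⟩ := h.exists_comp_eq_zero hW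
    (w ≫ F.map (homOfLE (le_max_left n n')) - w' ≫ F.map (homOfLE (le_max_right n n'))) (by
      rw [Preadditive.sub_comp, Category.assoc, Category.assoc, h.comp, h.comp, hw, sub_self])
  have h1 := compat_le φ hφ hm
    (w ≫ F.map (homOfLE (le_max_left n n')) - w' ≫ F.map (homOfLE (le_max_right n n')))
  rw [h0, map_zero, map_sub, compat_le φ hφ, compat_le φ hφ] at h1
  exact sub_eq_zero.1 h1.symm

theorem exists_colimHom (h : M.IsTel F G io) (hW : M.IsCpt W) (φ : ∀ n, (W ⟶ F.obj n) →+ A)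
    (hφ : ∀ n w, φ (n + 1) (w ≫ F.map (homOfLE (Nat.le_succ n))) = φ n w) :
    ∃ ψ : (W ⟶ G) →+ A, ∀ n w, ψ (w ≫ io n) = φ n w := by
  choose N v hv using h.exists_factor' hW
  have key : ∀ n w, φ (N (w ≫ io n)) (v (w ≫ io n)) = φ n w := fun n w =>
    compat_eq h hW φ hφ _ _ (hv _)
  refine ⟨AddMonoidHom.mk' (fun x => φ (N x) (v x)) fun x y => ?_, key⟩
  have h1 : x + y = (v x ≫ F.map (homOfLE (le_max_left (N x) (N y))) +
      v y ≫ F.map (homOfLE (le_max_right (N x) (N y)))) ≫ io _ := by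
    rw [Preadditive.add_comp, Category.assoc, Category.assoc, h.comp, h.comp, hv, hv]
  have h2 := key _ (v x ≫ F.map (homOfLE (le_max_left (N x) (N y))) +
      v y ≫ F.map (homOfLE (le_max_right (N x) (N y))))
  rw [← h1, map_add, compat_le φ hφ, compat_le φ hφ] at h2
  exact h2

end colim

section pres

variable {B : 𝒯} [MonObj B] [IsCommMonObj B] {A : Type} [CommRing A] {H : ℤ → AddSubgroup A}
  {lam : HRing (stdEven 𝒯) B →+* A} (P : Pres (IsHomog B) H lam)

/-- the sum of spheres at stage `i` -/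
abbrev WW (i : ℕ) : 𝒯 := ∐ fun a : P.I i => (stdEven 𝒯).S (P.deg i a)

/-- the tautological basis -/
def rb (i : ℕ) : RBasis (stdEven 𝒯) B (WW P i) (P.I i) := RBasis.taut (P.I i) (P.deg i)

/-- the basis elements -/
def ww (i : ℕ) (a : P.I i) : (stdEven 𝒯).S (P.deg i a) ⟶ B ⊗ WW P i := (rb P i).w a

/-- the basis of the homotopy -/
def bas (i : ℕ) : Module.Basis (P.I i) (HRing (stdEven 𝒯) B) (MP (stdEven 𝒯) B (WW P i)) :=
  (rb P i).basis M.isSphere_std

theorem bas_apply (i : ℕ) (a : P.I i) :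
    bas P i a = MP.of (stdEven 𝒯) B (WW P i) (P.deg i a) (ww P i a) :=
  (rb P i).basis_apply M.isSphere_std a

/-- the matrix entries as homotopy classes -/
def mm (i : ℕ) (a : P.I i) (b : P.I (i + 1)) :
    (stdEven 𝒯).S (P.deg i a - P.deg (i + 1) b) ⟶ B := (P.M_hom i a b).choose

theorem mm_spec (i : ℕ) (a : P.I i) (b : P.I (i + 1)) :
    P.M i a b = HRing.of (stdEven 𝒯) B _ (mm P i a b) := (P.M_hom i a b).choose_spec

/-- the images of the basis elements -/
def im (i : ℕ) (a : P.I i) : (stdEven 𝒯).S (P.deg i a) ⟶ B ⊗ WW P (i + 1) :=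
  ∑ b, gsmul (ModStr.free B (WW P (i + 1))) (sub_add_cancel (P.deg i a) (P.deg (i + 1) b))
    (mm P i a b) (ww P (i + 1) b)

/-- the transition maps -/
def tr (i : ℕ) : B ⊗ WW P i ⟶ B ⊗ WW P (i + 1) :=
  (rb P i).linMap (ModStr.free B (WW P (i + 1))) (im P i)

theorem tr_lin (i : ℕ) :
    (ModStr.free B (WW P i)).IsLinear (ModStr.free B (WW P (i + 1))) (tr P i) :=
  (rb P i).linMap_isLinear _ _

theorem ww_tr (i : ℕ) (a : P.I i) : ww P i a ≫ tr P i = im P i a :=
  (rb P i).w_linMap (ModStr.free B (WW P (i + 1))) (im P i) a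

theorem of_im (i : ℕ) (a : P.I i) : MP.of (stdEven 𝒯) B (WW P (i + 1)) (P.deg i a) (im P i a) =
    ∑ b, P.M i a b • bas P (i + 1) b := by
  unfold im
  rw [map_sum]
  refine Finset.sum_congr rfl fun b _ => ?_
  rw [mm_spec, bas_apply, MP.smul_of (sub_add_cancel (P.deg i a) (P.deg (i + 1) b))]

/-- homogeneous expansion in the basis -/
theorem exists_exp (i : ℕ) {d : ℤ} (w : (stdEven 𝒯).S d ⟶ B ⊗ WW P i) :
    ∃ x : ∀ a : P.I i, (stdEven 𝒯).S (d - P.deg i a) ⟶ B,
      w = ∑ a, gsmul (ModStr.free B (WW P i)) (sub_add_cancel d (P.deg i a)) (x a) (ww P i a) := by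
  classical
  obtain ⟨t, x, hx⟩ : ∃ (t : Finset (P.I i))
      (x : ∀ a : P.I i, (stdEven 𝒯).S (d - P.deg i a) ⟶ B), w = ∑ a ∈ t,
        gsmul (ModStr.free B (WW P i)) (sub_add_cancel d (P.deg i a)) (x a) (ww P i a) :=
    (rb P i).exists_expansion M.isSphere_std w
  refine ⟨fun a => if a ∈ t then x a else 0, hx.trans ?_⟩
  rw [← Finset.sum_subset (Finset.subset_univ t)]
  · refine Finset.sum_congr rfl fun a ha => ?_
    simp only [if_pos ha]
  · intro a _ ha
    simp only [if_neg ha]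
    exact gsmul_zero_left' _ _ _

theorem of_exp (i : ℕ) {d : ℤ} (x : ∀ a : P.I i, (stdEven 𝒯).S (d - P.deg i a) ⟶ B) :
    MP.of (stdEven 𝒯) B (WW P i) d
      (∑ a, gsmul (ModStr.free B (WW P i)) (sub_add_cancel d (P.deg i a)) (x a) (ww P i a)) =
      ∑ a, HRing.of (stdEven 𝒯) B _ (x a) • bas P i a := by
  rw [map_sum]
  refine Finset.sum_congr rfl fun a _ => ?_
  rw [bas_apply, MP.smul_of (sub_add_cancel d (P.deg i a))]

theorem repr_exp (i : ℕ) {d : ℤ} (x : ∀ a : P.I i, (stdEven 𝒯).S (d - P.deg i a) ⟶ B)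
    (a : P.I i) : (bas P i).repr (MP.of (stdEven 𝒯) B (WW P i) d
      (∑ a, gsmul (ModStr.free B (WW P i)) (sub_add_cancel d (P.deg i a)) (x a) (ww P i a))) a =
      HRing.of (stdEven 𝒯) B _ (x a) := by
  rw [of_exp]
  exact congrFun ((bas P i).repr_sum_self fun a => HRing.of (stdEven 𝒯) B _ (x a)) a

/-- the coordinates of the image under the transition map -/
theorem repr_tr (i : ℕ) {d : ℤ} (w : (stdEven 𝒯).S d ⟶ B ⊗ WW P i) (b : P.I (i + 1)) :
    (bas P (i + 1)).repr (MP.of (stdEven 𝒯) B (WW P (i + 1)) d (w ≫ tr P i)) b =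
      ∑ a, (bas P i).repr (MP.of (stdEven 𝒯) B (WW P i) d w) a * P.M i a b := by
  obtain ⟨x, rfl⟩ := exists_exp P i w
  have h1 : MP.of (stdEven 𝒯) B (WW P (i + 1)) d ((∑ a, gsmul (ModStr.free B (WW P i))
      (sub_add_cancel d (P.deg i a)) (x a) (ww P i a)) ≫ tr P i) =
      ∑ b, (∑ a, HRing.of (stdEven 𝒯) B _ (x a) * P.M i a b) • bas P (i + 1) b := by
    rw [Preadditive.sum_comp, map_sum]
    simp only [Finset.sum_smul]
    rw [Finset.sum_comm]
    refine Finset.sum_congr rfl fun a _ => ?_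
    rw [← gsmul_comp _ _ (tr_lin P i), ww_tr, ← MP.smul_of (sub_add_cancel d (P.deg i a)), of_im,
      Finset.smul_sum]
    refine Finset.sum_congr rfl fun b _ => ?_
    rw [mul_smul]
  rw [h1]
  refine (congrFun ((bas P (i + 1)).repr_sum_self _) b).trans ?_
  refine Finset.sum_congr rfl fun a _ => ?_
  rw [repr_exp]

/-- the comparison map at stage `i` -/
def th (i : ℕ) : MP (stdEven 𝒯) B (WW P i) →+ A :=
  AddMonoidHom.mk' (fun x => ∑ a, lam ((bas P i).repr x a) * P.g i a) fun x y => by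
    rw [← Finset.sum_add_distrib]
    refine Finset.sum_congr rfl fun a _ => ?_
    rw [map_add, Finsupp.add_apply, map_add, add_mul]

theorem th_apply (i : ℕ) (x : MP (stdEven 𝒯) B (WW P i)) :
    th P i x = ∑ a, lam ((bas P i).repr x a) * P.g i a := rfl

theorem th_smul (i : ℕ) (c : HRing (stdEven 𝒯) B) (x : MP (stdEven 𝒯) B (WW P i)) :
    th P i (c • x) = lam c * th P i x := by
  rw [th_apply, th_apply, Finset.mul_sum]
  refine Finset.sum_congr rfl fun a _ => ?_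
  rw [map_smul, Finsupp.smul_apply, smul_eq_mul, map_mul, _root_.mul_assoc]

theorem th_tr (i : ℕ) {d : ℤ} (w : (stdEven 𝒯).S d ⟶ B ⊗ WW P i) :
    th P (i + 1) (MP.of (stdEven 𝒯) B (WW P (i + 1)) d (w ≫ tr P i)) =
      th P i (MP.of (stdEven 𝒯) B (WW P i) d w) := by
  rw [th_apply, th_apply]
  simp only [repr_tr, map_sum, Finset.sum_mul]
  rw [Finset.sum_comm]
  refine Finset.sum_congr rfl fun a _ => ?_
  rw [P.g_succ i a, Finset.mul_sum]
  refine Finset.sum_congr rfl fun b _ => ?_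
  rw [map_mul, _root_.mul_assoc]

theorem th_mem [GradedRing H] (hl : ∀ d c, IsHomog B d c → lam c ∈ H d) (i : ℕ) {d : ℤ}
    (w : (stdEven 𝒯).S d ⟶ B ⊗ WW P i) : th P i (MP.of (stdEven 𝒯) B (WW P i) d w) ∈ H d := by
  obtain ⟨x, rfl⟩ := exists_exp P i w
  rw [th_apply]
  refine AddSubgroup.sum_mem _ fun a _ => ?_
  rw [repr_exp]
  have h1 := SetLike.mul_mem_graded (hl _ _ ⟨x a, rfl⟩) (P.g_mem i a)
  rwa [sub_add_cancel] at h1

theorem th_surj {d : ℤ} {y : A} (hy : y ∈ H d) : ∃ (i : ℕ) (w : (stdEven 𝒯).S d ⟶ B ⊗ WW P i),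
    th P i (MP.of (stdEven 𝒯) B (WW P i) d w) = y := by
  obtain ⟨i, c, hc, rfl⟩ := P.exh d y hy
  choose x hx using hc
  refine ⟨i, ∑ a, gsmul (ModStr.free B (WW P i)) (sub_add_cancel d (P.deg i a)) (x a) (ww P i a),
    ?_⟩
  rw [th_apply]
  refine Finset.sum_congr rfl fun a _ => ?_
  rw [repr_exp, hx]

/-- the sequence of free modules -/
def seq : ℕ ⥤ 𝒯 := Functor.ofSequence (X := fun i => B ⊗ WW P i) (tr P)

theorem seq_map (i : ℕ) : (seq P).map (homOfLE (Nat.le_succ i)) = tr P i :=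
  Functor.ofSequence_map_homOfLE_succ (X := fun i => B ⊗ WW P i) (tr P) i

theorem th_inj (i : ℕ) {d : ℤ} (w : (stdEven 𝒯).S d ⟶ B ⊗ WW P i)
    (hw : th P i (MP.of (stdEven 𝒯) B (WW P i) d w) = 0) :
    ∃ (j : ℕ) (h : i ≤ j), (w ≫ (seq P).map (homOfLE h) : _ ⟶ (seq P).obj j) = 0 := by
  let u : ∀ j, i ≤ j → ((stdEven 𝒯).S d ⟶ B ⊗ WW P j) := fun j h =>
    (w ≫ (seq P).map (homOfLE h) : _ ⟶ (seq P).obj j)
  have u0 : u i le_rfl = w := by
    have h1 : (seq P).map (homOfLE (le_refl i)) = 𝟙 _ := (seq P).map_id i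
    exact (congrArg (fun z => (w ≫ z : _ ⟶ (seq P).obj i)) h1).trans (Category.comp_id _)
  have u1 : ∀ j (h : i ≤ j), u (j + 1) (Nat.le_succ_of_le h) = u j h ≫ tr P j := fun j h => by
    have h1 : (seq P).map (homOfLE (Nat.le_succ_of_le h)) =
        (seq P).map (homOfLE h) ≫ (seq P).map (homOfLE (Nat.le_succ j)) := (seq P).map_comp _ _
    rw [seq_map] at h1
    exact (congrArg (fun z => (w ≫ z : _ ⟶ (seq P).obj (j + 1))) h1).trans
      (Category.assoc _ _ _).symm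
  let c : ∀ j, P.I j → HRing (stdEven 𝒯) B := fun j a =>
    if h : i ≤ j then (bas P j).repr (MP.of (stdEven 𝒯) B (WW P j) d (u j h)) a else 0
  have hc : ∀ j (h : i ≤ j) a,
      c j a = (bas P j).repr (MP.of (stdEven 𝒯) B (WW P j) d (u j h)) a := fun j h a => dif_pos h
  obtain ⟨j, hj, h0⟩ := P.kill i c (fun j h b => by
    rw [hc (j + 1) (Nat.le_succ_of_le h), u1 j h, repr_tr]
    exact Finset.sum_congr rfl fun a _ => by rw [hc j h]) (by
    rw [← hw, th_apply]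
    exact Finset.sum_congr rfl fun a _ => by rw [hc i le_rfl, u0])
  refine ⟨j, hj, ?_⟩
  have h1 : MP.of (stdEven 𝒯) B (WW P j) d (u j hj) = MP.of (stdEven 𝒯) B (WW P j) d 0 := by
    rw [map_zero]
    refine (bas P j).ext_elem fun a => ?_
    rw [← hc j hj, h0, map_zero]
    rfl
  exact MP.of_injective d h1

end pres

end Vale.Agent.P251EJ28
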